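import Mathlib
import Vale.Agent.Lib.P162.Defs
import Vale.Agent.Lib.P162.RDefs

/-!
P162 pool piece R3 (second copy, helper34): a new card that shares no coin with the old cards
moves independently of them.
-/

namespace Vale.Agent.Lib.P162.H34

open Finset BigOperators

/-- splitting a count of bit vectors according to the value of one coordinate -/
theorem card_fiber {ι : Type} [Fintype ι] [DecidableEq ι] (i0 : ι) (P : (ι → Bool) → Prop) [DecidablePred P] :
    (univ.filter fun c : ι → Bool => P c).card
      = (univ.filter fun c : ι → Bool => c i0 = true ∧ P c).card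
        + (univ.filter fun c : ι → Bool => c i0 = false ∧ P c).card := by
  rw [← Finset.card_union_of_disjoint]
  · congr 1
    ext c
    simp only [mem_filter, mem_union, mem_univ, true_and]
    cases hc : c i0 <;> simp
  · rw [Finset.disjoint_filter]
    intro c _ h1 h2
    rw [h1.1] at h2
    exact absurd h2.1 (by simp)

/-- abstract counting: a predicate `B` on bit vectors that does not depend on the coordinate
`i0`, together with a condition `g` on that coordinate -/
theorem card_split {ι : Type} [Fintype ι] [DecidableEq ι] (i0 : ι) (g : Bool → Prop)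
    [DecidablePred g] (B : (ι → Bool) → Prop) [DecidablePred B]
    (hB : ∀ c b, B (Function.update c i0 b) ↔ B c) :
    (((univ.filter fun c : ι → Bool => g (c i0) ∧ B c).card : ℝ))
      = ((if g true then (1 : ℝ) else 0) + (if g false then 1 else 0)) / 2
        * ((univ.filter fun c : ι → Bool => B c).card : ℝ) := by
  have h1 : (univ.filter fun c : ι → Bool => c i0 = true ∧ B c).card
      = (univ.filter fun c : ι → Bool => c i0 = false ∧ B c).card := by
    refine Finset.card_bij' (fun c _ => Function.update c i0 false)
      (fun c _ => Function.update c i0 true) ?_ ?_ ?_ ?_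
    · intro c hc
      rw [mem_filter] at hc ⊢
      exact ⟨mem_univ _, Function.update_self .., (hB c false).2 hc.2.2⟩
    · intro c hc
      rw [mem_filter] at hc ⊢
      exact ⟨mem_univ _, Function.update_self .., (hB c true).2 hc.2.2⟩
    · intro c hc
      rw [mem_filter] at hc
      rw [Function.update_idem, ← hc.2.1, Function.update_eq_self]
    · intro c hc
      rw [mem_filter] at hc
      rw [Function.update_idem, ← hc.2.1, Function.update_eq_self]
  have h3 : ∀ b : Bool, (univ.filter fun c : ι → Bool => c i0 = b ∧ g (c i0) ∧ B c).card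
      = if g b then (univ.filter fun c : ι → Bool => c i0 = b ∧ B c).card else 0 := by
    intro b
    by_cases hg : g b
    · rw [if_pos hg]
      apply congrArg
      apply Finset.filter_congr
      intro c _
      constructor
      · rintro ⟨k1, _, k3⟩
        exact ⟨k1, k3⟩
      · rintro ⟨k1, k3⟩
        exact ⟨k1, k1 ▸ hg, k3⟩
    · rw [if_neg hg, Finset.card_eq_zero, Finset.filter_eq_empty_iff]
      rintro c _ ⟨k1, k2, _⟩
      exact hg (k1 ▸ k2)
  rw [card_fiber i0 (fun c => g (c i0) ∧ B c), h3 true, h3 false, card_fiber i0 B, h1]
  by_cases hg1 : g true <;> by_cases hg2 : g false <;> simp [hg1, hg2] <;> ring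

/-- the two values of the new coin give the two targets `2 p` and `2 p + 1` -/
theorem wmat_aux {R : Type} [AddMonoidWithOne R] [DecidableEq R] (a : Bool) (u v : R) :
    ((if v = u + (if xor a true then 1 else 0) then (1 : ℝ) else 0)
      + (if v = u + (if xor a false then 1 else 0) then 1 else 0)) / 2
    = (if v = u then (1 / 2 : ℝ) else 0) + (if v = u + 1 then (1 / 2 : ℝ) else 0) := by
  cases a
  · simp only [Bool.false_xor, if_true, Bool.false_eq_true, if_false, add_zero]
    split_ifs <;> norm_num
  · simp only [Bool.true_xor, Bool.not_true, Bool.not_false, if_true, Bool.false_eq_true,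
      if_false, add_zero]
    split_ifs <;> norm_num

theorem step_new_free (h j : ℕ) [NeZero h] (z y : Fin (j + 1) → ZMod (2 * h))
    (hz : ¬ newBad h j z) :
    stepProb h (j + 1) z y = Wmat h (z 0) (y 0) * stepProb h j (Fin.tail z) (Fin.tail y) := by
  have hB : ∀ (c : ZMod h → Bool) (b : Bool),
      (∀ i : Fin j, move h (Function.update c (ZMod.cast (z 0) : ZMod h) b) (z i.succ)
        = y i.succ) ↔ (∀ i : Fin j, move h c (z i.succ) = y i.succ) := by
    intro c b
    have key : ∀ i : Fin j,
        move h (Function.update c (ZMod.cast (z 0) : ZMod h) b) (z i.succ)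
          = move h c (z i.succ) := by
      intro i
      have hne : (ZMod.cast (z i.succ) : ZMod h) ≠ (ZMod.cast (z 0) : ZMod h) := by
        intro he
        exact hz ((newBad_iff h j z).2 ⟨i, he.symm⟩)
      unfold move
      rw [Function.update_of_ne hne]
    constructor
    · intro hc i
      rw [← key i]
      exact hc i
    · intro hc i
      rw [key i]
      exact hc i
  have e1 : (univ.filter fun c : ZMod h → Bool => ∀ i' : Fin (j + 1), move h c (z i') = y i')
      = univ.filter fun c : ZMod h → Bool =>
          (y 0 = 2 * z 0 + (if xor (decide (h ≤ (z 0).val)) (c (ZMod.cast (z 0) : ZMod h))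
            then 1 else 0)) ∧ (∀ i : Fin j, move h c (z i.succ) = y i.succ) := by
    apply Finset.filter_congr
    intro c _
    rw [Fin.forall_fin_succ]
    constructor
    · rintro ⟨k0, k1⟩
      exact ⟨k0.symm, k1⟩
    · rintro ⟨k0, k1⟩
      exact ⟨k0.symm, k1⟩
  have e2 : (univ.filter fun c : ZMod h → Bool =>
        ∀ i : Fin j, move h c (Fin.tail z i) = Fin.tail y i)
      = univ.filter fun c : ZMod h → Bool => ∀ i : Fin j, move h c (z i.succ) = y i.succ := rfl
  have hW : Wmat h (z 0) (y 0)
      = ((if y 0 = 2 * z 0 + (if xor (decide (h ≤ (z 0).val)) true then 1 else 0)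
            then (1 : ℝ) else 0)
          + (if y 0 = 2 * z 0 + (if xor (decide (h ≤ (z 0).val)) false then 1 else 0)
            then 1 else 0)) / 2 := by
    rw [wmat_aux]
    rfl
  unfold stepProb
  rw [e1, e2, hW,
    card_split (ZMod.cast (z 0) : ZMod h)
      (fun b => y 0 = 2 * z 0 + (if xor (decide (h ≤ (z 0).val)) b then 1 else 0))
      (fun c => ∀ i : Fin j, move h c (z i.succ) = y i.succ) hB,
    mul_div_assoc]

end Vale.Agent.Lib.P162.H34
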