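import Mathlib
import Vale.Agent.Lib.P162.Defs
import Vale.Agent.Lib.P162.Law
import Vale.Agent.Lib.P162.RDefs
import Vale.Agent.Lib.P162.CVDefs
import Vale.Agent.Lib.P162.helper57.Final
import Vale.Agent.Lib.P162.helper5.TvStep
import Vale.Agent.Lib.P162.helper95.KmatBasic
import Vale.Agent.Lib.P162.helper6.LawEqPow
import Vale.Agent.Lib.P162.helper52.UnifStationary

/-!
Thorp shuffle: iterating the contraction of the meeting probability over blocks, and adding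
the tracked cards one at a time (pool job CV11, seat helper34).
-/

namespace Vale.Agent.Lib.P162.H34CV

open Finset BigOperators
open Vale.Agent.Lib.P162
open Vale.Agent.Lib.P162.H95 (stepProb_nonneg stepProb_sum Kmat_pow_sum)
open Vale.Agent.Lib.P162.H57 (tv_mono)
open Vale.Agent.Lib.P162.H6 (law_eq_pow)
open Vale.Agent.Lib.P162.H52 (unif_stationary)
open Vale.Agent.Lib.P162.H5 (tv_step)

/-- At time zero the two walkers started in the same hole sit in the same hole. -/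
theorem Dcol_zero_diag (h j : ℕ) [NeZero h] (p : ZMod (2 * h)) (w : Fin j → ZMod (2 * h)) :
    Dcol h j 0 (Fin.cons p (Fin.cons p w)) = 1 := by
  rw [Dcol_apply, pow_zero]
  rw [Finset.sum_eq_single w]
  · rw [Finset.sum_eq_single p]
    · rw [Matrix.one_apply_eq]
    · intro q _ hq
      rw [Matrix.one_apply_ne]
      intro heq
      exact hq ((Fin.cons_inj.mp heq).1).symm
    · intro hp
      exact absurd (Finset.mem_univ p) hp
  · intro v _ hv
    apply Finset.sum_eq_zero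
    intro q _
    rw [Matrix.one_apply_ne]
    intro heq
    exact hv ((Fin.cons_inj.mp (Fin.cons_inj.mp heq).2).2).symm
  · intro hw
    exact absurd (Finset.mem_univ w) hw

theorem tail_inj {α : Type*} {j : ℕ} (z : Fin (j + 1) → α) (hz : Function.Injective z) :
    Function.Injective (Fin.tail z) := by
  intro a b hab
  have h1 : z a.succ = z b.succ := hab
  exact Fin.succ_injective _ (hz h1)

theorem succ_le_of_inj (h j : ℕ) [NeZero h] (z : Fin (j + 1) → ZMod (2 * h))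
    (hz : Function.Injective z) : j + 1 ≤ 2 * h := by
  have h1 := Fintype.card_le_of_injective z hz
  rw [Fintype.card_fin, ZMod.card] at h1
  exact h1

theorem defect_cv_of (h j : ℕ) [NeZero h]
    (hQnn : ∀ (t : ℕ) (u y : Fin (j + 2) → ZMod (2 * h)), 0 ≤ (Qmat h j ^ t) u y)
    (hdef : ∀ (t : ℕ) (p : ZMod (2 * h)) (w : Fin j → ZMod (2 * h)),
      Function.Injective (Fin.cons p w : Fin (j + 1) → ZMod (2 * h)) →
      (defect h j t (Fin.cons p w)) ^ 2
        ≤ ((2 * h : ℝ) - j) * Dcol h j t (Fin.cons p (Fin.cons p w)) - 1)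
    (hcontr : ∀ (B : ℕ) (κ : ℝ), 0 ≤ κ → κ * ((2 * h : ℝ) - j) ≤ 1 →
      (∀ (v : Fin j → ZMod (2 * h)) (q q' : ZMod (2 * h)), Function.Injective v →
        (∀ i, q ≠ v i) → (∀ i, q' ≠ v i) → κ ≤ Dcol h j B (Fin.cons q (Fin.cons q' v))) →
      ∀ (p : ZMod (2 * h)) (w : Fin j → ZMod (2 * h)),
        Function.Injective (Fin.cons p w : Fin (j + 1) → ZMod (2 * h)) → ∀ t : ℕ,
        Dcol h j (t + B) (Fin.cons p (Fin.cons p w))
          ≤ κ + (1 - κ * ((2 * h : ℝ) - j)) * Dcol h j t (Fin.cons p (Fin.cons p w)))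
    (hminor : ∀ (v : Fin j → ZMod (2 * h)) (q q' : ZMod (2 * h)), Function.Injective v →
      (∀ i, q ≠ v i) → (∀ i, q' ≠ v i) →
      1 / (16 * (h : ℝ)) ≤ Dcol h j (7 * Nat.clog 2 (2 * h) + 1) (Fin.cons q (Fin.cons q' v)))
    (z : Fin (j + 1) → ZMod (2 * h)) (hz : Function.Injective z) (r : ℕ) :
    (defect h j ((7 * Nat.clog 2 (2 * h) + 1) * r) z) ^ 2
      ≤ (2 * h : ℝ) * (1 - ((2 * h : ℝ) - j) / (16 * (h : ℝ))) ^ r := by
  have _unused := hQnn
  have hh : (0 : ℝ) < h := by exact_mod_cast NeZero.pos h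
  have hj1 : (j : ℝ) + 1 ≤ 2 * h := by
    have := succ_le_of_inj h j z hz
    exact_mod_cast this
  have hj0 : (0 : ℝ) ≤ j := Nat.cast_nonneg j
  obtain ⟨p, w, rfl⟩ : ∃ p w, z = (Fin.cons p w : Fin (j + 1) → ZMod (2 * h)) :=
    ⟨z 0, Fin.tail z, (Fin.cons_self_tail z).symm⟩
  -- abbreviations
  set m : ℝ := (2 * h : ℝ) - j with hm
  set B : ℕ := 7 * Nat.clog 2 (2 * h) + 1 with hB
  have hm1 : 1 ≤ m := by rw [hm]; linarith
  have hm2 : m ≤ 2 * h := by rw [hm]; linarith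
  have hm0 : 0 < m := by linarith
  have hκ0 : (0 : ℝ) ≤ 1 / (16 * (h : ℝ)) := by positivity
  have hκm : 1 / (16 * (h : ℝ)) * m ≤ 1 := by
    rw [div_mul_eq_mul_div, one_mul, div_le_one (by positivity)]
    linarith
  have hρeq : 1 - 1 / (16 * (h : ℝ)) * m = 1 - m / (16 * (h : ℝ)) := by
    rw [div_mul_eq_mul_div, one_mul]
  have hρ0 : 0 ≤ 1 - m / (16 * (h : ℝ)) := by
    rw [← hρeq]
    linarith
  have hstep := hcontr B (1 / (16 * (h : ℝ))) hκ0 hκm hminor p w hz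
  -- the recursion
  have hrec : ∀ r : ℕ, Dcol h j (B * r) (Fin.cons p (Fin.cons p w)) - 1 / m
      ≤ (1 - m / (16 * (h : ℝ))) ^ r * (1 - 1 / m) := by
    intro r
    induction r with
    | zero =>
      rw [Nat.mul_zero, Dcol_zero_diag, pow_zero, one_mul]
    | succ r ih =>
      have h1 := hstep (B * r)
      rw [hρeq] at h1
      have e : B * (r + 1) = B * r + B := Nat.mul_succ B r
      rw [e, pow_succ]
      have h2 : 1 / (16 * (h : ℝ)) + (1 - m / (16 * (h : ℝ))) * (1 / m) - 1 / m = 0 := by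
        field_simp
        ring
      have h3 := mul_le_mul_of_nonneg_left ih hρ0
      nlinarith [h1, h2, h3]
  have hd := hdef (B * r) p w hz
  have hr := hrec r
  have hpow : 0 ≤ (1 - m / (16 * (h : ℝ))) ^ r := pow_nonneg hρ0 r
  have h4 : m * (Dcol h j (B * r) (Fin.cons p (Fin.cons p w)) - 1 / m)
      ≤ m * ((1 - m / (16 * (h : ℝ))) ^ r * (1 - 1 / m)) :=
    mul_le_mul_of_nonneg_left hr hm0.le
  have h5 : m * (Dcol h j (B * r) (Fin.cons p (Fin.cons p w)) - 1 / m)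
      = m * Dcol h j (B * r) (Fin.cons p (Fin.cons p w)) - 1 := by
    field_simp
  have h6 : m * ((1 - m / (16 * (h : ℝ))) ^ r * (1 - 1 / m))
      = (1 - m / (16 * (h : ℝ))) ^ r * (m - 1) := by
    field_simp
  have h7 : (1 - m / (16 * (h : ℝ))) ^ r * (m - 1)
      ≤ (1 - m / (16 * (h : ℝ))) ^ r * (2 * h) :=
    mul_le_mul_of_nonneg_left (by linarith) hpow
  calc (defect h j (B * r) (Fin.cons p w)) ^ 2
      ≤ m * Dcol h j (B * r) (Fin.cons p (Fin.cons p w)) - 1 := hd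
    _ = m * (Dcol h j (B * r) (Fin.cons p (Fin.cons p w)) - 1 / m) := h5.symm
    _ ≤ m * ((1 - m / (16 * (h : ℝ))) ^ r * (1 - 1 / m)) := h4
    _ = (1 - m / (16 * (h : ℝ))) ^ r * (m - 1) := h6
    _ ≤ (1 - m / (16 * (h : ℝ))) ^ r * (2 * h) := h7
    _ = (2 * h : ℝ) * (1 - m / (16 * (h : ℝ))) ^ r := mul_comm _ _

/-- Adding the cards one at a time. -/
theorem cv_l1_of (h : ℕ) [NeZero h]
    (hdefect : ∀ (j : ℕ) (z : Fin (j + 1) → ZMod (2 * h)), Function.Injective z → ∀ r : ℕ,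
      (defect h j ((7 * Nat.clog 2 (2 * h) + 1) * r) z) ^ 2
        ≤ (2 * h : ℝ) * (1 - ((2 * h : ℝ) - j) / (16 * (h : ℝ))) ^ r)
    (r : ℕ) (ε : ℝ) (hε : 0 < ε) (hε1 : ε ≤ 1) :
    ∀ (k : ℕ) (x : Fin k → ZMod (2 * h)), Function.Injective x →
      (k : ℝ) ≤ (1 - ε) * (2 * h : ℝ) →
      ∑ y, |(Kmat h k ^ ((7 * Nat.clog 2 (2 * h) + 1) * r)) x y - unifInj h k y|
        ≤ (k : ℝ) * Real.sqrt ((2 * h : ℝ) * (1 - ε / 8) ^ r) := by
  have hh : (0 : ℝ) < h := by exact_mod_cast NeZero.pos h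
  have _unused1 := hε
  have _unused2 := hε1
  intro k
  induction k with
  | zero =>
    intro x _ _
    have hsum := Kmat_pow_sum h 0 ((7 * Nat.clog 2 (2 * h) + 1) * r) x
    have huniv : (Finset.univ : Finset (Fin 0 → ZMod (2 * h))) = {x} := by
      rw [Finset.eq_singleton_iff_unique_mem]
      exact ⟨Finset.mem_univ x, fun y _ => Subsingleton.elim y x⟩
    rw [huniv, Finset.sum_singleton] at hsum ⊢
    have hu : unifInj h 0 x = 1 := by
      rw [defs_aux_unifInj, if_pos (Function.injective_of_subsingleton _),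
        Nat.descFactorial_zero]
      norm_num
    rw [hu, hsum, sub_self, abs_zero, Nat.cast_zero, zero_mul]
  | succ j ih =>
    intro x hx hk
    have hk' : (j : ℝ) + 1 ≤ (1 - ε) * (2 * h : ℝ) := by
      have e : ((j + 1 : ℕ) : ℝ) = (j : ℝ) + 1 := by push_cast; ring
      rw [e] at hk
      exact hk
    have hj0 : (0 : ℝ) ≤ j := Nat.cast_nonneg j
    have htx : Function.Injective (Fin.tail x) := tail_inj x hx
    have h1 := tv_step h j ((7 * Nat.clog 2 (2 * h) + 1) * r) x hx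
    have h3 := ih (Fin.tail x) htx (by linarith)
    have h2 := hdefect j x hx r
    -- the base of the power
    have hb0 : 0 ≤ 1 - ((2 * h : ℝ) - j) / (16 * (h : ℝ)) := by
      have : ((2 * h : ℝ) - j) / (16 * (h : ℝ)) ≤ 1 := by
        rw [div_le_one (by positivity)]
        linarith
      linarith
    have hb1 : 1 - ((2 * h : ℝ) - j) / (16 * (h : ℝ)) ≤ 1 - ε / 8 := by
      have : ε / 8 ≤ ((2 * h : ℝ) - j) / (16 * (h : ℝ)) := by
        rw [div_le_div_iff₀ (by norm_num) (by positivity)]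
        nlinarith
      linarith
    have hpow : (1 - ((2 * h : ℝ) - j) / (16 * (h : ℝ))) ^ r ≤ (1 - ε / 8) ^ r :=
      pow_le_pow_left₀ hb0 hb1 r
    have h4 : (defect h j ((7 * Nat.clog 2 (2 * h) + 1) * r) x) ^ 2
        ≤ (2 * h : ℝ) * (1 - ε / 8) ^ r :=
      le_trans h2 (mul_le_mul_of_nonneg_left hpow (by positivity))
    have h5 : defect h j ((7 * Nat.clog 2 (2 * h) + 1) * r) x
        ≤ Real.sqrt ((2 * h : ℝ) * (1 - ε / 8) ^ r) := Real.le_sqrt_of_sq_le h4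
    have e : ((j + 1 : ℕ) : ℝ) * Real.sqrt ((2 * h : ℝ) * (1 - ε / 8) ^ r)
        = Real.sqrt ((2 * h : ℝ) * (1 - ε / 8) ^ r)
          + (j : ℝ) * Real.sqrt ((2 * h : ℝ) * (1 - ε / 8) ^ r) := by
      push_cast
      ring
    rw [e]
    linarith

theorem cv_all_of (h : ℕ) [NeZero h]
    (hdefect : ∀ (j : ℕ) (z : Fin (j + 1) → ZMod (2 * h)), Function.Injective z → ∀ r : ℕ,
      (defect h j ((7 * Nat.clog 2 (2 * h) + 1) * r) z) ^ 2
        ≤ (2 * h : ℝ) * (1 - ((2 * h : ℝ) - j) / (16 * (h : ℝ))) ^ r)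
    (k r : ℕ) (ε : ℝ) (hε : 0 < ε) (hε1 : ε ≤ 1)
    (hk : (k : ℝ) ≤ (1 - ε) * (2 * h : ℝ))
    (x : Fin k → ZMod (2 * h)) (hx : Function.Injective x) (T : ℕ)
    (hT : (7 * Nat.clog 2 (2 * h) + 1) * r ≤ T) :
    (1 / 2 : ℝ) * ∑ y : Fin k → ZMod (2 * h), |trackedLaw h k T x y - unifInj h k y|
      ≤ (k : ℝ) / 2 * Real.sqrt ((2 * h : ℝ) * (1 - ε / 8) ^ r) := by
  obtain ⟨t, rfl⟩ := Nat.exists_eq_add_of_le hT
  have h1 : ∑ y, |trackedLaw h k ((7 * Nat.clog 2 (2 * h) + 1) * r + t) x y - unifInj h k y|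
      ≤ ∑ y, |(Kmat h k ^ ((7 * Nat.clog 2 (2 * h) + 1) * r)) x y - unifInj h k y| := by
    have e : ∀ y, trackedLaw h k ((7 * Nat.clog 2 (2 * h) + 1) * r + t) x y
        = (Kmat h k ^ ((7 * Nat.clog 2 (2 * h) + 1) * r + t)) x y :=
      fun y => law_eq_pow h k _ x y
    rw [Finset.sum_congr rfl (fun y _ => by rw [e y])]
    exact tv_mono (Kmat h k) (fun z y => stepProb_nonneg h k z y) (fun z => stepProb_sum h k z)
      (unifInj h k) (unif_stationary h k) x _ t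
  have h2 := cv_l1_of h hdefect r ε hε hε1 k x hx hk
  have h3 : (1 / 2 : ℝ) * ∑ y : Fin k → ZMod (2 * h),
        |trackedLaw h k ((7 * Nat.clog 2 (2 * h) + 1) * r + t) x y - unifInj h k y|
      ≤ (1 / 2 : ℝ) * ((k : ℝ) * Real.sqrt ((2 * h : ℝ) * (1 - ε / 8) ^ r)) :=
    mul_le_mul_of_nonneg_left (le_trans h1 h2) (by norm_num)
  calc (1 / 2 : ℝ) * ∑ y : Fin k → ZMod (2 * h),
        |trackedLaw h k ((7 * Nat.clog 2 (2 * h) + 1) * r + t) x y - unifInj h k y|
      ≤ (1 / 2 : ℝ) * ((k : ℝ) * Real.sqrt ((2 * h : ℝ) * (1 - ε / 8) ^ r)) := h3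
    _ = (k : ℝ) / 2 * Real.sqrt ((2 * h : ℝ) * (1 - ε / 8) ^ r) := by ring

end Vale.Agent.Lib.P162.H34CV
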