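import Mathlib
import Vale.Agent.Lib.P162.Defs
import Vale.Agent.Lib.P162.RDefs
import Vale.Agent.Lib.P162.CVDefs
import Vale.Agent.Lib.P162.helper33.PartnerProb
import Vale.Agent.Lib.P162.helper52.KilledLower
import Vale.Agent.Lib.P162.helper93.Gap
import Vale.Agent.Lib.P162.helper36.MoveInj
import Vale.Agent.Lib.P162.helper95.KmatBasic

/-!
Thorp shuffle: the chain of two walkers that is killed with probability one half at each
partner time still reaches a partner state at time `7 L` with probability about `1 / (2 (n - 1))`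
(the reach hypothesis of the minorization step, seat helper34).
-/

namespace Vale.Agent.Lib.P162.H34CV

open Finset BigOperators
open Vale.Agent.Lib.P162

/-- Half the deck size is not zero modulo the deck size. -/
theorem half_ne_zero (h : ℕ) [NeZero h] : ((h : ℕ) : ZMod (2 * h)) ≠ 0 := by
  intro h0
  rw [ZMod.natCast_eq_zero_iff] at h0
  have hh : 0 < h := NeZero.pos h
  have := Nat.le_of_dvd hh h0
  omega

/-- Partners sit in different positions. -/
theorem ne_of_partner (h j : ℕ) [NeZero h] (a : Fin (j + 2) → ZMod (2 * h))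
    (ha : a 1 = a 0 + (h : ZMod (2 * h))) : a 0 ≠ a 1 := by
  intro h01
  rw [← h01] at ha
  exact half_ne_zero h (left_eq_add.mp ha)

/-- One shuffle keeps two walkers in different positions apart. -/
theorem step_ne (h j : ℕ) [NeZero h] (a b : Fin (j + 2) → ZMod (2 * h)) (ha : a 0 ≠ a 1)
    (hK : Kmat h (j + 2) a b ≠ 0) : b 0 ≠ b 1 := by
  obtain ⟨c, hc⟩ := H93.H93_step_witness h (j + 2) a b hK
  intro hb
  apply ha
  apply H36.move_injective h c
  rw [hc 0, hc 1]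
  exact hb

theorem partner_reach (h j : ℕ) [NeZero h] (u : Fin (j + 2) → ZMod (2 * h)) (hu : u 0 ≠ u 1) :
    1 / ((2 * h : ℝ) - 1) - 2592 * (Nat.clog 2 (2 * h) : ℝ) ^ 2 / (2 * h : ℝ) ^ 2
        - (1 / ((2 * h : ℝ) - 1) + 2592 * (Nat.clog 2 (2 * h) : ℝ) ^ 2 / (2 * h : ℝ) ^ 2) / 2
        - ((7 * Nat.clog 2 (2 * h) : ℕ) : ℝ) * (1 / 2 ^ Nat.log 2 h) ^ 2 / 2
      ≤ ∑ b ∈ univ.filter (fun y : Fin (j + 2) → ZMod (2 * h) =>
            y 1 = y 0 + (h : ZMod (2 * h))),
          ((Matrix.of fun (a b : Fin (j + 2) → ZMod (2 * h)) =>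
            (if a 1 = a 0 + (h : ZMod (2 * h)) then (1 / 2 : ℝ) else 1)
              * Kmat h (j + 2) a b) ^ (7 * Nat.clog 2 (2 * h))) u b := by
  have hh : 0 < h := NeZero.pos h
  have hhr : (1 : ℝ) ≤ h := by exact_mod_cast hh
  have hmem : ∀ a : Fin (j + 2) → ZMod (2 * h),
      a ∈ univ.filter (fun y : Fin (j + 2) → ZMod (2 * h) => y 1 = y 0 + (h : ZMod (2 * h)))
        ↔ a 1 = a 0 + (h : ZMod (2 * h)) := fun a => by
    rw [Finset.mem_filter]
    exact ⟨fun x => x.2, fun x => ⟨Finset.mem_univ _, x⟩⟩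
  have hmat : (Matrix.of fun (a b : Fin (j + 2) → ZMod (2 * h)) =>
        (if a ∈ univ.filter (fun y : Fin (j + 2) → ZMod (2 * h) =>
            y 1 = y 0 + (h : ZMod (2 * h))) then (1 / 2 : ℝ) else 1) * Kmat h (j + 2) a b)
      = (Matrix.of fun (a b : Fin (j + 2) → ZMod (2 * h)) =>
        (if a 1 = a 0 + (h : ZMod (2 * h)) then (1 / 2 : ℝ) else 1) * Kmat h (j + 2) a b) := by
    ext a b
    show (if a ∈ univ.filter (fun y : Fin (j + 2) → ZMod (2 * h) =>
            y 1 = y 0 + (h : ZMod (2 * h))) then (1 / 2 : ℝ) else 1) * Kmat h (j + 2) a b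
      = (if a 1 = a 0 + (h : ZMod (2 * h)) then (1 / 2 : ℝ) else 1) * Kmat h (j + 2) a b
    rw [if_congr (hmem a) rfl rfl]
  have hlog : 2 ^ Nat.log 2 h ≤ h := Nat.pow_log_le_self 2 (Nat.pos_iff_ne_zero.mp hh)
  have hlogL : Nat.log 2 h ≤ Nat.clog 2 (2 * h) :=
    le_trans (Nat.log_le_clog 2 h) (Nat.clog_mono_right 2 (by omega))
  have h1 : (0 : ℝ) ≤ 1 / ((2 * h : ℝ) - 1) := by
    apply div_nonneg zero_le_one
    linarith
  have hα : (0 : ℝ) ≤ 1 / ((2 * h : ℝ) - 1)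
      + 2592 * (Nat.clog 2 (2 * h) : ℝ) ^ 2 / (2 * h : ℝ) ^ 2 :=
    add_nonneg h1 (by positivity)
  have hβ : (0 : ℝ) ≤ 1 / 2 ^ Nat.log 2 h := by positivity
  have key := H52CV.killed_lower (Kmat h (j + 2))
    (fun a b => H95.stepProb_nonneg h (j + 2) a b) (fun a => H95.stepProb_sum h (j + 2) a)
    (univ.filter (fun y : Fin (j + 2) → ZMod (2 * h) => y 1 = y 0 + (h : ZMod (2 * h))))
    (fun a => a 0 ≠ a 1)
    (fun a b ha hK => step_ne h j a b ha hK)
    (fun a ha => ne_of_partner h j a ((hmem a).mp ha))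
    (Nat.log 2 h) (6 * Nat.clog 2 (2 * h)) (7 * Nat.clog 2 (2 * h))
    (1 / ((2 * h : ℝ) - 1) + 2592 * (Nat.clog 2 (2 * h) : ℝ) ^ 2 / (2 * h : ℝ) ^ 2)
    (1 / 2 ^ Nat.log 2 h)
    (1 / ((2 * h : ℝ) - 1) - 2592 * (Nat.clog 2 (2 * h) : ℝ) ^ 2 / (2 * h : ℝ) ^ 2)
    hα hβ
    (fun a ha s hs1 hs => H33CV.pp_gap h j a ((hmem a).mp ha) s hs1
      (le_trans (Nat.pow_le_pow_right (by norm_num) hs) hlog))
    (fun a ha s hs => H33CV.pp_upper h j a ha (Nat.log 2 h) s hlog hs)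
    (fun a ha s hs => by
      have hm := H33CV.pp_mix h j a (ne_of_partner h j a ((hmem a).mp ha)) s hs
      have := (abs_le.mp hm).2
      linarith)
    (by omega) u hu
    (by
      have hm := H33CV.pp_mix h j u hu (7 * Nat.clog 2 (2 * h)) (by omega)
      have := (abs_le.mp hm).1
      linarith)
  rw [hmat] at key
  exact key

end Vale.Agent.Lib.P162.H34CV
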